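import Vale.Agent.P022.H545.Abs
import Vale.Agent.P022.H23.Narrow

/-!
P022, real `K` (in fact any number field): [RCORE], with narrow classes and totally positive
generators.
-/

open scoped ModularForm MatrixGroups Manifold NumberField nonZeroDivisors
open UpperHalfPlane Matrix CongruenceSubgroup
open Vale.Agent.P022.H23 (TP NP nreps)

noncomputable section

namespace Vale.Agent.P022.H545

/-- [RAPP] approximation on totally positive elements by sums of `f(α) g(N α)` -/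
def RApp {K : Type} [Field K] [NumberField K] {E : Type} [NontriviallyNormedField E]
    (m : ℕ) (ψ : Ideal (𝓞 K) →* E) (𝓕 : Set (𝓞 K → ℤ)) : Prop :=
  ∀ ε : ℝ, 0 < ε → ∃ (n : ℕ) (f : Fin n → 𝓞 K → ℤ) (g : Fin n → Polynomial E),
    (∀ i, f i ∈ 𝓕) ∧ ∀ α : 𝓞 K, TP α → IsCoprime α ((2 * m : ℕ) : 𝓞 K) →
      ‖ψ (Ideal.span {α}) - ∑ i, (f i α : E) * (g i).eval ((Algebra.norm ℤ α : ℤ) : E)‖ < ε

/-- [RVAN] the vanishing property of the functions `G f κ` (for `K` real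
`G f κ α = sgn(σ₁ α) f(α) N(α) ^ κ` on the fundamental domain, `0` elsewhere) -/
def RVan (K : Type) [Field K] [NumberField K] (N : ℕ) [NeZero N] (χ : ℕ → ℤ) (E : Type)
    [NontriviallyNormedField E] (𝓕 : Set (𝓞 K → ℤ)) (G : (𝓞 K → ℤ) → ℕ → 𝓞 K → ℤ) : Prop :=
  ∀ f ∈ 𝓕, ∀ (κ : ℕ) (𝔟 : Ideal (𝓞 K)), 𝔟 ≠ ⊥ → ∀ ε : ℝ, 0 < ε → ∃ k : ℕ,
    ∀ P : FreeAlgebra ℤ (Gen N), (∀ i < k, FreeAlgebra.lift ℤ (fun s => gHk N s i) P = 0) →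
      ‖((pair (G f κ) 𝔟 (Lam K N χ P) : ℤ) : E)‖ < ε

/-- [RGEN] the sum of `G f κ` over the generators of an ideal is `w f(α) N(α) ^ κ`, `α` a totally
positive generator, and `0` if there is none -/
structure RGen (K : Type) [Field K] [NumberField K] (𝓕 : Set (𝓞 K → ℤ))
    (G : (𝓞 K → ℤ) → ℕ → 𝓞 K → ℤ) (w : ℤ) : Prop where
  ne : w ≠ 0
  pos : ∀ f ∈ 𝓕, ∀ (κ : ℕ) (α : 𝓞 K), TP α →
    ∑ᶠ β ∈ {β : 𝓞 K | Ideal.span {β} = Ideal.span {α}}, G f κ β =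
      w * (f α * (Algebra.norm ℤ α) ^ κ)
  not : ∀ f ∈ 𝓕, ∀ (κ : ℕ) (I : Ideal (𝓞 K)), I ≠ ⊥ → ¬ NP I →
    ∑ᶠ β ∈ {β : 𝓞 K | Ideal.span {β} = I}, G f κ β = 0

/-- [RCORE] -/
theorem rcore (hLIM : LIMStmt) (hSUP : SUPStmt) (K : Type) [Field K] [NumberField K]
    (E : Type) [NontriviallyNormedField E] [NormedAlgebra ℚ_[2] E] [IsUltrametricDist E]
    [FiniteDimensional ℚ_[2] E] (m : ℕ) (hm : Odd m) (N : ℕ) [NeZero N] (hmN : m ∣ N)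
    (χ : ℕ → ℤ) (ψ : Ideal (𝓞 K) →* E)
    (hψ : ∀ 𝔞 : Ideal (𝓞 K), IsCoprime 𝔞 (Ideal.span {((2 * m : ℕ) : 𝓞 K)}) → ‖ψ 𝔞‖ = 1)
    (𝓕 : Set (𝓞 K → ℤ)) (G : (𝓞 K → ℤ) → ℕ → 𝓞 K → ℤ) (w : ℤ) (hG : RGen K 𝓕 G w)
    (hApp : RApp m ψ 𝓕) (hVan : RVan K N χ E 𝓕 G) :
    ∃ c : ContHom (gHk N) E, ∀ ℓ : PA N,
      c.lam (gT2 (gHk N) (Sum.inl ℓ)) =
        (∑ᶠ 𝔭 ∈ {𝔭 : Ideal (𝓞 K) | Ideal.absNorm 𝔭 = ℓ.1}, ψ 𝔭) ∧
      c.lam (gT2 (gHk N) (Sum.inr ℓ)) = χ ℓ.1 * ψ (Ideal.span {(ℓ.1 : 𝓞 K)}) := by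
  have hm0 : 2 * m ≠ 0 := by
    obtain ⟨j, rfl⟩ := hm
    omega
  have hcz : CharZero E := charZero_of_injective_algebraMap (algebraMap ℚ_[2] E).injective
  have hw0 : (w : E) ≠ 0 := by exact_mod_cast hG.ne
  obtain ⟨h, 𝔟, hb1, hb2, hcls⟩ := nreps K (2 * m) hm0
  refine core_abs hLIM hSUP K E m N hmN χ ψ hψ
    {G' | ∃ f ∈ 𝓕, ∃ (κ : ℕ) (c : Fin h), G' = fun 𝔞 =>
      ((∑ᶠ β ∈ {β : 𝓞 K | Ideal.span {β} = 𝔟 c * 𝔞}, G f κ β : ℤ) : E)} ?_ ?_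
  · rintro _ ⟨f, hf, κ, c, rfl⟩ ε hε
    obtain ⟨k, hk⟩ := hVan f hf κ (𝔟 c) (hb2 c) ε hε
    refine ⟨k, fun P hP => ?_⟩
    have h1 := hk P hP
    have h2 := ev_map (Int.castAddHom E)
      (fun 𝔞 => ∑ᶠ β ∈ {β : 𝓞 K | Ideal.span {β} = 𝔟 c * 𝔞}, G f κ β) (Lam K N χ P)
    change ((pair (G f κ) (𝔟 c) (Lam K N χ P) : ℤ) : E) = ev (fun 𝔞 =>
      ((∑ᶠ β ∈ {β : 𝓞 K | Ideal.span {β} = 𝔟 c * 𝔞}, G f κ β : ℤ) : E)) _ at h2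
    rw [h2] at h1
    exact h1
  · intro ε hε
    have hwε : 0 < ε := hε
    obtain ⟨n, f, g, hf, happ⟩ := hApp ε hε
    let J : Type := Σ _ : Fin h, Σ i : Fin n, Fin ((g i).natDegree + 1)
    let e : J ≃ Fin (Fintype.card J) := Fintype.equivFin J
    refine ⟨Fintype.card J,
      fun t 𝔞 => ((∑ᶠ β ∈ {β : 𝓞 K | Ideal.span {β} = 𝔟 (e.symm t).1 * 𝔞},
        G (f (e.symm t).2.1) ((e.symm t).2.2 : ℕ) β : ℤ) : E),
      fun t => (ψ (𝔟 (e.symm t).1))⁻¹ * (w : E)⁻¹ * (g (e.symm t).2.1).coeff (e.symm t).2.2,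
      fun t => ⟨f (e.symm t).2.1, hf _, ((e.symm t).2.2 : ℕ), (e.symm t).1, rfl⟩, ?_⟩
    intro 𝔞 h𝔞
    have ha0 : 𝔞 ≠ ⊥ := by
      rintro rfl
      have h1 : IsCoprime (Ideal.span {(0 : 𝓞 K)}) (Ideal.span {((2 * m : ℕ) : 𝓞 K)}) := by
        rw [Ideal.span_singleton_zero]
        exact h𝔞
      rw [Ideal.isCoprime_span_singleton_iff, isCoprime_zero_left] at h1
      exact not_unit K m h1
    obtain ⟨c₀, ⟨α, hα, hspan⟩, hc2⟩ := hcls 𝔞 ha0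
    have hbc := hψ _ (hb1 c₀)
    have hb0 : ψ (𝔟 c₀) ≠ 0 := by
      intro h6
      rw [h6, norm_zero] at hbc
      exact zero_ne_one hbc
    have key : ∑ t, (ψ (𝔟 (e.symm t).1))⁻¹ * (w : E)⁻¹ *
        (g (e.symm t).2.1).coeff (e.symm t).2.2 *
        ((∑ᶠ β ∈ {β : 𝓞 K | Ideal.span {β} = 𝔟 (e.symm t).1 * 𝔞},
          G (f (e.symm t).2.1) ((e.symm t).2.2 : ℕ) β : ℤ) : E) =
        (ψ (𝔟 c₀))⁻¹ * ∑ i, (f i α : E) * (g i).eval ((Algebra.norm ℤ α : ℤ) : E) := by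
      rw [Equiv.sum_comp e.symm (fun j : J => (ψ (𝔟 j.1))⁻¹ * (w : E)⁻¹ *
        (g j.2.1).coeff j.2.2 *
        ((∑ᶠ β ∈ {β : 𝓞 K | Ideal.span {β} = 𝔟 j.1 * 𝔞}, G (f j.2.1) (j.2.2 : ℕ) β : ℤ) : E))]
      rw [Fintype.sum_sigma, Finset.sum_eq_single c₀]
      · rw [Fintype.sum_sigma, Finset.mul_sum]
        refine Finset.sum_congr rfl fun i _ => ?_
        rw [Polynomial.eval_eq_sum_range, Finset.sum_range, Finset.mul_sum, Finset.mul_sum]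
        refine Finset.sum_congr rfl fun j _ => ?_
        rw [hspan, hG.pos (f i) (hf i) j α hα]
        push_cast
        field_simp
      · intro c _ hc
        refine Finset.sum_eq_zero fun ij _ => ?_
        rw [hG.not _ (hf _) _ _ (mul_ne_zero (hb2 c) ha0) (fun h => hc (hc2 c h)),
          Int.cast_zero, mul_zero]
      · intro h
        exact absurd (Finset.mem_univ _) h
    rw [key]
    have h1 : ψ 𝔞 = (ψ (𝔟 c₀))⁻¹ * ψ (Ideal.span {α}) := by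
      rw [← hspan, map_mul, inv_mul_cancel_left₀ hb0]
    rw [h1, ← mul_sub, norm_mul, norm_inv, hbc, inv_one, one_mul]
    refine happ α hα ?_
    rw [← Ideal.isCoprime_span_singleton_iff, ← hspan]
    exact (hb1 c₀).mul_left h𝔞

end Vale.Agent.P022.H545
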