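import Vale.Agent.P022.H545.RGen
import Vale.Agent.P022.H749.App3R

/-!
P022, real quadratic `K`: [MAIN3] from [RVAN].
-/

open scoped ModularForm MatrixGroups Manifold NumberField
open UpperHalfPlane Matrix CongruenceSubgroup
open Vale.Agent.P022.H23 (TP)
open Vale.Agent.P022.R (MAIN3Stmt chi4)

noncomputable section

namespace Vale.Agent.P022.H545

/-- the functions of helper353's [RVAN]: `𝓕 = {f | ∃ r par, Eqv m r N (χ χ₋₄^par) f` and `f` is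
invariant under all totally positive units`}` -/
def FamV (K : Type) [Field K] [NumberField K] (m N : ℕ) (χ : ℤ → ℤ) : Set (𝓞 K → ℤ) :=
  {f | (∃ r par : ℕ, X.Eqv m r N (fun d => χ d * chi4 d ^ par) f) ∧
    ∀ ε₀ : (𝓞 K)ˣ, TP (ε₀ : 𝓞 K) → ∀ α, f (ε₀ * α) = f α}

/-- [RVAN] what [MAIN3] needs -/
def RVAN3Stmt : Prop := ∀ (K : Type) [Field K] [NumberField K]
  [Algebra.IsQuadraticExtension ℚ K]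
  (D₁ e m : ℕ) (σ₁ σ₂ : K →+* ℝ) (_ : σ₁ ≠ σ₂)
  (_ : NumberField.discr K = ((D₁ * 2 ^ e : ℕ) : ℤ)) (_ : Odd D₁) (_ : Odd m)
  [NeZero (D₁ * m ^ 2)] (E : Type)
  [NontriviallyNormedField E] [NormedAlgebra ℚ_[2] E] [IsUltrametricDist E]
  (ε₀ : (𝓞 K)ˣ) (_ : 1 < σ₁ ((ε₀ : 𝓞 K) : K)) (_ : σ₁ ((ε₀ : 𝓞 K) : K) * σ₂ ((ε₀ : 𝓞 K) : K) = 1)
  (_ : TP (ε₀ : 𝓞 K)),
  ∃ χ : ℤ → ℤ, H749.Chr8 χ ∧
    RVan K (D₁ * m ^ 2) (fun ℓ => jacobiSym ((D₁ * 2 ^ e : ℕ) : ℤ) ℓ) E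
      (FamV K m (D₁ * m ^ 2) χ) (GR σ₁ σ₂ (σ₁ ((ε₀ : 𝓞 K) : K)))

theorem RVan.mono {K : Type} [Field K] [NumberField K] {N : ℕ} [NeZero N] {χ : ℕ → ℤ} {E : Type}
    [NontriviallyNormedField E] {𝓕 𝓕' : Set (𝓞 K → ℤ)} {G : (𝓞 K → ℤ) → ℕ → 𝓞 K → ℤ}
    (h : RVan K N χ E 𝓕 G) (hF : 𝓕' ⊆ 𝓕) : RVan K N χ E 𝓕' G :=
  fun f hf => h f (hF hf)

/-- [MAIN3] -/
theorem main3_of (hLIM : LIMStmt) (hSUP : SUPStmt) (hV : RVAN3Stmt) : MAIN3Stmt := by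
  intro K _ _ _ D₁ e m σ₁ σ₂ hne hd hD₁ hm _ E _ _ _ _ ψ hψ
  have h2 : Module.finrank ℚ K = 2 := Algebra.IsQuadraticExtension.finrank_eq_two ℚ K
  obtain ⟨ε₀, hu1, hu2, hu⟩ := H626.exists_gen h2 hne
  have hu0 : TP (ε₀ : 𝓞 K) := by
    rw [H23.tp_iff h2 hne]
    have h1 : 0 < σ₁ ((ε₀ : 𝓞 K) : K) := by linarith
    refine ⟨h1, ?_⟩
    by_contra h
    rw [not_lt] at h
    nlinarith
  obtain ⟨χ, hχ, hvan⟩ := hV K D₁ e m σ₁ σ₂ hne hd hD₁ hm E ε₀ hu1 hu2 hu0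
  have hmN : m ∣ D₁ * m ^ 2 := ⟨D₁ * m, by ring⟩
  obtain ⟨par, -, happ⟩ := H749.rapp_par h2 hne hm hmN ψ hψ hχ
  refine rcore hLIM hSUP K E m hm (D₁ * m ^ 2) hmN _ ψ
    (fun 𝔞 h𝔞 => H23.nrmR hm.pos.ne' ψ hψ h𝔞)
    (H749.FamR K m (D₁ * m ^ 2) (fun d => χ d * chi4 d ^ par))
    (GR σ₁ σ₂ (σ₁ ((ε₀ : 𝓞 K) : K))) 2
    (rgen h2 hne ε₀ hu1 hu2 hu _ (fun f hf => hf.2.1) (fun f hf => hf.2.2.1)) happ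
    (hvan.mono ?_)
  rintro f ⟨⟨r, hr⟩, hf, -, -⟩
  exact ⟨⟨r, par, hr⟩, hf⟩

end Vale.Agent.P022.H545
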