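import Vale.Agent.P022.H545.Main3
import Vale.Agent.P022.H353.Rvan3
import Vale.Agent.P022.H587.Lim
import Vale.Agent.P022.H576.Sup

/-!
P022, real quadratic `K`: [MAIN3] without hypothesis.
-/

namespace Vale.Agent.P022.H545

/-- [MAIN3] every 2-adic Hecke character of mixed signature of a real quadratic field -/
theorem MAIN3 : R.MAIN3Stmt := main3_of H587.LIM H576.SUP H353.rvan3

end Vale.Agent.P022.H545
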