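import Vale.Agent.P022.H545.RCore
import Vale.Agent.P022.H23.RealK
import Vale.Agent.P022.H455.Dom

/-!
P022, real quadratic `K`: [RGEN] the sum of `sgn(σ₁ α) f(α) N(α)^κ` over the generators in the
fundamental domain.
-/

set_option linter.unusedSectionVars false

open scoped NumberField
open Vale.Agent.P022.H23 (TP NP tp_iff tp_gen)
open Vale.Agent.P022.R (FR)

noncomputable section

namespace Vale.Agent.P022.H545

variable {K : Type} [Field K] [NumberField K] {σ₁ σ₂ : K →+* ℝ}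

theorem emb_zpow (σ : K →+* ℝ) (η : (𝓞 K)ˣ) (n : ℤ) :
    σ (((η ^ n : (𝓞 K)ˣ) : 𝓞 K) : K) = σ ((η : 𝓞 K) : K) ^ n := by
  have := map_zpow (Units.map ((σ.comp (algebraMap (𝓞 K) K) : 𝓞 K →+* ℝ) : 𝓞 K →* ℝ)) η n
  have h3 := congrArg (Units.val) this
  rw [Units.val_zpow_eq_zpow_val] at h3
  exact h3

theorem emb_mul (σ : K →+* ℝ) (α β : 𝓞 K) :
    σ ((α * β : 𝓞 K) : K) = σ (α : K) * σ (β : K) := by
  change σ ((α : K) * (β : K)) = _
  rw [map_mul]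

theorem emb_neg (σ : K →+* ℝ) (α : 𝓞 K) : σ ((-α : 𝓞 K) : K) = -σ (α : K) := by
  change σ (-(α : K)) = _
  rw [map_neg]

/-- the functions whose theta series are taken -/
def GR (σ₁ σ₂ : K →+* ℝ) (u : ℝ) (f : 𝓞 K → ℤ) (κ : ℕ) (α : 𝓞 K) : ℤ :=
  FR σ₁ σ₂ u f α * (Ideal.absNorm (Ideal.span {α}) : ℤ) ^ κ

theorem FR_cond {u : ℝ} {f : 𝓞 K → ℤ} {α : 𝓞 K} (h : FR σ₁ σ₂ u f α ≠ 0) :
    |σ₂ (α : K)| ≤ |σ₁ (α : K)| ∧ |σ₁ (α : K)| < u ^ 2 * |σ₂ (α : K)| ∧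
      0 < σ₁ (α : K) * σ₂ (α : K) := by
  by_contra h1
  exact h (by rw [FR, if_neg h1])

theorem GR_cond {u : ℝ} {f : 𝓞 K → ℤ} {κ : ℕ} {α : 𝓞 K} (h : GR σ₁ σ₂ u f κ α ≠ 0) :
    |σ₂ (α : K)| ≤ |σ₁ (α : K)| ∧ |σ₁ (α : K)| < u ^ 2 * |σ₂ (α : K)| ∧
      0 < σ₁ (α : K) * σ₂ (α : K) := by
  refine FR_cond (f := f) fun h1 => h ?_
  rw [GR, h1, zero_mul]

theorem norm_of_tp (h2 : Module.finrank ℚ K = 2) (hne : σ₁ ≠ σ₂) {α : 𝓞 K} (h : TP α) :
    (Ideal.absNorm (Ideal.span {α}) : ℤ) = Algebra.norm ℤ α := by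
  have h1 := TP.norm h2 hne h
  rw [H626.emb_norm h2 hne α] at h1
  exact_mod_cast h1

/-- [RGEN] -/
theorem rgen (h2 : Module.finrank ℚ K = 2) (hne : σ₁ ≠ σ₂) (η : (𝓞 K)ˣ)
    (hη1 : 1 < σ₁ ((η : 𝓞 K) : K)) (hη2 : σ₁ ((η : 𝓞 K) : K) * σ₂ ((η : 𝓞 K) : K) = 1)
    (hη : ∀ u : (𝓞 K)ˣ, 0 < σ₁ ((u : 𝓞 K) : K) → 0 < σ₂ ((u : 𝓞 K) : K) → ∃ n : ℤ, u = η ^ n)
    (𝓕 : Set (𝓞 K → ℤ))
    (hU : ∀ f ∈ 𝓕, ∀ u : (𝓞 K)ˣ, TP (u : 𝓞 K) → ∀ α, f (u * α) = f α)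
    (hodd : ∀ f ∈ 𝓕, ∀ α, f (-α) = -f α) :
    RGen K 𝓕 (GR σ₁ σ₂ (σ₁ ((η : 𝓞 K) : K))) 2 where
  ne := two_ne_zero
  pos := by
    classical
    intro f hf κ α hα
    have hu0 : 0 < σ₁ ((η : 𝓞 K) : K) := by linarith
    have hv0 : 0 < σ₂ ((η : 𝓞 K) : K) := by
      by_contra h
      rw [not_lt] at h
      nlinarith
    have hv : σ₂ ((η : 𝓞 K) : K) = (σ₁ ((η : 𝓞 K) : K))⁻¹ := by
      rw [← one_div, eq_div_iff hu0.ne', mul_comm]
      exact hη2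
    have a1 := hα.2 σ₁
    have a2 := hα.2 σ₂
    have hA : ∀ (k : ℤ) (β : 𝓞 K), ((MulAction.toPermHom (𝓞 K)ˣ (𝓞 K) η) ^ k) β =
        ((η ^ k : (𝓞 K)ˣ) : 𝓞 K) * β := by
      intro k β
      rw [← map_zpow]
      rfl
    obtain ⟨n, ⟨hn1, hn2⟩, huniq⟩ := H455.dom (V := 𝓞 K)
      (A := MulAction.toPermHom (𝓞 K)ˣ (𝓞 K) η) (x1 := fun v : 𝓞 K => σ₁ (v : K))
      (x2 := fun v : 𝓞 K => σ₂ (v : K)) hη1
      (fun v => by
        change σ₁ (((η : 𝓞 K) * v : 𝓞 K) : K) = _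
        rw [emb_mul])
      (fun v => by
        change σ₂ (((η : 𝓞 K) * v : 𝓞 K) : K) = _
        rw [emb_mul, hv]) (v := α) a1.ne' a2.ne'
    simp only [hA] at hn1 hn2 huniq
    set β₀ : 𝓞 K := ((η ^ n : (𝓞 K)ˣ) : 𝓞 K) * α with hβ₀
    have hTPu : ∀ k : ℤ, TP ((η ^ k : (𝓞 K)ˣ) : 𝓞 K) := by
      intro k
      rw [tp_iff h2 hne, emb_zpow, emb_zpow]
      exact ⟨zpow_pos hu0 k, zpow_pos hv0 k⟩
    have hTP : TP β₀ := (hTPu n).mul hα
    have hspan : Ideal.span {β₀} = Ideal.span {α} := by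
      rw [Ideal.span_singleton_eq_span_singleton, hβ₀]
      exact ⟨(η ^ n)⁻¹, by rw [mul_comm, ← mul_assoc, Units.inv_mul, one_mul]⟩
    have hne0 : β₀ ≠ -β₀ := by
      intro h
      have h3 := congrArg (fun x : 𝓞 K => σ₁ (x : K)) h
      simp only [emb_neg] at h3
      have := hTP.2 σ₁
      linarith
    have key : {β : 𝓞 K | Ideal.span {β} = Ideal.span {α}} ∩
        Function.support (GR σ₁ σ₂ (σ₁ ((η : 𝓞 K) : K)) f κ) =
        ↑({β₀, -β₀} : Finset (𝓞 K)) ∩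
        Function.support (GR σ₁ σ₂ (σ₁ ((η : 𝓞 K) : K)) f κ) := by
      ext β
      constructor
      · rintro ⟨hβ1, hβ2⟩
        refine ⟨?_, hβ2⟩
        have hβ1' : Ideal.span {β} = Ideal.span {α} := hβ1
        obtain ⟨c1, c2, c3⟩ := GR_cond hβ2
        rw [Finset.coe_insert, Finset.coe_singleton, Set.mem_insert_iff, Set.mem_singleton_iff]
        by_cases h3 : 0 < σ₁ (β : K)
        · have h4 : 0 < σ₂ (β : K) := (pos_iff_pos_of_mul_pos c3).1 h3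
          have h5 : TP β := (tp_iff h2 hne β).2 ⟨h3, h4⟩
          obtain ⟨k, hk⟩ := tp_gen hη hα h5 hβ1'.symm
          left
          have h6 := huniq k ⟨by rw [← hk]; exact c1, by rw [← hk]; exact c2⟩
          rw [hk, h6]
        · have h3' : σ₁ (β : K) ≠ 0 := by
            intro h
            rw [h, zero_mul] at c3
            exact lt_irrefl _ c3
          have h4 : 0 < σ₁ ((-β : 𝓞 K) : K) := by
            rw [emb_neg]
            have := lt_of_le_of_ne (not_lt.1 h3) h3'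
            linarith
          have h4' : 0 < σ₂ ((-β : 𝓞 K) : K) := by
            refine (pos_iff_pos_of_mul_pos ?_).1 h4
            rw [emb_neg, emb_neg, neg_mul_neg]
            exact c3
          have h5 : TP (-β) := (tp_iff h2 hne _).2 ⟨h4, h4'⟩
          obtain ⟨k, hk⟩ := tp_gen hη hα h5 (by rw [Ideal.span_singleton_neg]; exact hβ1'.symm)
          right
          have h6 := huniq k ⟨by rw [← hk, emb_neg, emb_neg, abs_neg, abs_neg]; exact c1,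
            by rw [← hk, emb_neg, emb_neg, abs_neg, abs_neg]; exact c2⟩
          rw [← neg_eq_iff_eq_neg, hk, h6]
      · rintro ⟨hβ1, hβ2⟩
        refine ⟨?_, hβ2⟩
        rw [Finset.coe_insert, Finset.coe_singleton, Set.mem_insert_iff,
          Set.mem_singleton_iff] at hβ1
        change Ideal.span {β} = Ideal.span {α}
        rcases hβ1 with rfl | rfl
        · exact hspan
        · rw [Ideal.span_singleton_neg]
          exact hspan
    rw [finsum_mem_eq_sum_of_inter_support_eq _ key, Finset.sum_pair hne0]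
    have hN : (Ideal.absNorm (Ideal.span {β₀}) : ℤ) = Algebra.norm ℤ α := by
      rw [hspan, norm_of_tp h2 hne hα]
    have hN' : (Ideal.absNorm (Ideal.span {-β₀}) : ℤ) = Algebra.norm ℤ α := by
      rw [Ideal.span_singleton_neg, hN]
    have b1 := hTP.2 σ₁
    have b2 := hTP.2 σ₂
    have e1 : FR σ₁ σ₂ (σ₁ ((η : 𝓞 K) : K)) f β₀ = f α := by
      rw [FR, if_pos ⟨hn1, hn2, mul_pos b1 b2⟩, if_pos b1, hβ₀, hU f hf _ (hTPu n)]
    have e2 : FR σ₁ σ₂ (σ₁ ((η : 𝓞 K) : K)) f (-β₀) = f α := by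
      rw [FR, if_pos ⟨by rw [emb_neg, emb_neg, abs_neg, abs_neg]; exact hn1,
        by rw [emb_neg, emb_neg, abs_neg, abs_neg]; exact hn2,
        by rw [emb_neg, emb_neg, neg_mul_neg]; exact mul_pos b1 b2⟩, if_neg, hodd f hf, neg_neg,
        hβ₀, hU f hf _ (hTPu n)]
      rw [emb_neg]
      linarith
    rw [GR, GR, e1, e2, hN, hN']
    ring
  not := by
    intro f _ κ I _ hI
    refine finsum_mem_eq_zero_of_forall_eq_zero fun β hβ => ?_
    have hβ' : Ideal.span {β} = I := hβ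
    by_contra h
    obtain ⟨-, -, c3⟩ := GR_cond h
    by_cases h3 : 0 < σ₁ (β : K)
    · exact hI ⟨β, (tp_iff h2 hne β).2 ⟨h3, (pos_iff_pos_of_mul_pos c3).1 h3⟩, hβ'.symm⟩
    · have h3' : σ₁ (β : K) ≠ 0 := by
        intro h
        rw [h, zero_mul] at c3
        exact lt_irrefl _ c3
      have h4 : 0 < σ₁ ((-β : 𝓞 K) : K) := by
        rw [emb_neg]
        have := lt_of_le_of_ne (not_lt.1 h3) h3'
        linarith
      have h4' : 0 < σ₂ ((-β : 𝓞 K) : K) := by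
        refine (pos_iff_pos_of_mul_pos ?_).1 h4
        rw [emb_neg, emb_neg, neg_mul_neg]
        exact c3
      exact hI ⟨-β, (tp_iff h2 hne _).2 ⟨h4, h4'⟩, by rw [Ideal.span_singleton_neg]; exact hβ'.symm⟩

end Vale.Agent.P022.H545
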