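import Vale.Agent.P022.H472.Lit2

/-!
P022, block [CORE]: approximation + vanishing ⟹ the continuous homomorphism.
-/

open scoped ModularForm MatrixGroups Manifold NumberField nonZeroDivisors
open UpperHalfPlane Matrix CongruenceSubgroup

noncomputable section

namespace Vale.Agent.P022.H545

/-! ### units and generators -/

theorem fin_units (K : Type) [Field K] [NumberField K] [Algebra.IsQuadraticExtension ℚ K]
    [NumberField.IsTotallyComplex K] : Finite (𝓞 K)ˣ := by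
  have hrank : NumberField.Units.rank K = 0 := by
    have h1 : Module.finrank ℚ K = 2 := Algebra.IsQuadraticExtension.finrank_eq_two ℚ K
    have h2 := NumberField.InfinitePlace.card_add_two_mul_card_eq_rank K
    have h3 := NumberField.IsTotallyComplex.nrRealPlaces_eq_zero K
    dsimp only [NumberField.Units.rank]
    rw [NumberField.InfinitePlace.card_eq_nrRealPlaces_add_nrComplexPlaces]
    omega
  have h : ∀ u : (𝓞 K)ˣ, u ∈ NumberField.Units.torsion K := by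
    intro u
    obtain ⟨⟨x, e⟩, hxu, -⟩ := NumberField.Units.exist_unique_eq_mul_prod K u
    have : IsEmpty (Fin (NumberField.Units.rank K)) := by rw [hrank]; infer_instance
    rw [hxu, Finset.univ_eq_empty, Finset.prod_empty, mul_one]
    exact x.2
  exact Finite.of_injective (fun u => (⟨u, h u⟩ : NumberField.Units.torsion K))
    (fun a b h => by simpa using h)

section

variable {K : Type} [Field K]

theorem gen_set (α₀ : 𝓞 K) : {α : 𝓞 K | Ideal.span {α} = Ideal.span {α₀}} =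
    Set.range (fun u : (𝓞 K)ˣ => α₀ * u) := by
  ext α
  simp only [Set.mem_ofPred_eq, Ideal.span_singleton_eq_span_singleton, Set.mem_range]
  constructor
  · rintro ⟨u, hu⟩
    exact ⟨u⁻¹, by rw [← hu]; simp⟩
  · rintro ⟨u, rfl⟩
    exact ⟨u⁻¹, by simp⟩

variable [NumberField K] [Algebra.IsQuadraticExtension ℚ K] [NumberField.IsTotallyComplex K]

theorem gen_fin (I : Ideal (𝓞 K)) : {α : 𝓞 K | Ideal.span {α} = I}.Finite := by
  by_cases h : ∃ α₀, I = Ideal.span {α₀}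
  · obtain ⟨α₀, rfl⟩ := h
    have := fin_units K
    rw [gen_set]
    exact Set.finite_range _
  · have : {α : 𝓞 K | Ideal.span {α} = I} = ∅ := by
      ext α
      simp only [Set.mem_ofPred_eq, Set.mem_empty_iff_false, iff_false]
      intro h1
      exact h ⟨α, h1.symm⟩
    rw [this]
    exact Set.finite_empty

/-- the generators of `I` -/
def T (I : Ideal (𝓞 K)) : Finset (𝓞 K) := (gen_fin I).toFinset

theorem mem_T {I : Ideal (𝓞 K)} {α : 𝓞 K} : α ∈ T I ↔ Ideal.span {α} = I := by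
  rw [T, Set.Finite.mem_toFinset]
  rfl

theorem card_T {α₀ : 𝓞 K} (h : α₀ ≠ 0) : (T (Ideal.span {α₀})).card = Nat.card (𝓞 K)ˣ := by
  rw [T, ← Set.ncard_eq_toFinset_card _ (gen_fin _), gen_set]
  rw [← Nat.card_coe_set_eq]
  refine Nat.card_range_of_injective ?_
  intro u v huv
  have h1 : α₀ * (u : 𝓞 K) = α₀ * v := huv
  exact Units.ext (mul_left_cancel₀ h h1)

theorem T_empty {I : Ideal (𝓞 K)} (h : ¬ I.IsPrincipal) : T I = ∅ := by
  refine Finset.eq_empty_of_forall_notMem fun α hα => h ?_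
  rw [mem_T] at hα
  rw [← hα]
  exact ⟨⟨α, rfl⟩⟩

theorem pair_eq {M : Type} [AddCommGroup M] (F : 𝓞 K → M) (𝔟 : Ideal (𝓞 K))
    (x : MonoidAlgebra ℤ (Ideal (𝓞 K))) :
    pair F 𝔟 x = ∑ 𝔞 ∈ x.coeff.support, x.coeff 𝔞 • ∑ α ∈ T (𝔟 * 𝔞), F α := by
  rw [pair, Finsupp.sum]
  refine Finset.sum_congr rfl fun 𝔞 _ => ?_
  rw [finsum_mem_eq_finite_toFinset_sum _ (gen_fin _)]
  rfl

theorem pair_map {M M' : Type} [AddCommGroup M] [AddCommGroup M'] (φ : M →+ M') (F : 𝓞 K → M)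
    (𝔟 : Ideal (𝓞 K)) (x : MonoidAlgebra ℤ (Ideal (𝓞 K))) :
    φ (pair F 𝔟 x) = pair (fun α => φ (F α)) 𝔟 x := by
  rw [pair_eq, pair_eq, map_sum]
  simp only [map_zsmul, map_sum]

theorem pair_sum {M ι : Type} [AddCommGroup M] (s : Finset ι) (F : ι → 𝓞 K → M)
    (𝔟 : Ideal (𝓞 K)) (x : MonoidAlgebra ℤ (Ideal (𝓞 K))) :
    pair (fun α => ∑ i ∈ s, F i α) 𝔟 x = ∑ i ∈ s, pair (F i) 𝔟 x := by
  simp only [pair_eq]
  rw [Finset.sum_comm]
  refine Finset.sum_congr rfl fun 𝔞 _ => ?_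
  rw [Finset.sum_comm, Finset.smul_sum]

theorem pair_mul {E : Type} [Field E] (c : E) (F : 𝓞 K → E)
    (𝔟 : Ideal (𝓞 K)) (x : MonoidAlgebra ℤ (Ideal (𝓞 K))) :
    pair (fun α => c * F α) 𝔟 x = c * pair F 𝔟 x := by
  have := pair_map (AddMonoidHom.mulLeft c) F 𝔟 x
  exact this.symm

theorem pair_sub {M : Type} [AddCommGroup M] (F G : 𝓞 K → M)
    (𝔟 : Ideal (𝓞 K)) (x : MonoidAlgebra ℤ (Ideal (𝓞 K))) :
    pair (fun α => F α - G α) 𝔟 x = pair F 𝔟 x - pair G 𝔟 x := by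
  simp only [pair_eq, Finset.sum_sub_distrib, smul_sub]

/-- ultrametric bound -/
theorem pair_le {E : Type} [NontriviallyNormedField E] [IsUltrametricDist E] (F : 𝓞 K → E)
    (𝔟 : Ideal (𝓞 K)) (x : MonoidAlgebra ℤ (Ideal (𝓞 K))) {B : ℝ} (hB : 0 ≤ B)
    (h : ∀ 𝔞, x.coeff 𝔞 ≠ 0 → ∀ α : 𝓞 K, Ideal.span {α} = 𝔟 * 𝔞 → ‖F α‖ ≤ B) :
    ‖pair F 𝔟 x‖ ≤ B := by
  rw [pair_eq]
  refine IsUltrametricDist.norm_sum_le_of_forall_le_of_nonneg hB fun 𝔞 h𝔞 => ?_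
  rw [zsmul_eq_mul, norm_mul]
  have h1 : ‖((x.coeff 𝔞 : ℤ) : E)‖ ≤ 1 := IsUltrametricDist.norm_intCast_le_one E _
  have h2 : ‖∑ α ∈ T (𝔟 * 𝔞), F α‖ ≤ B :=
    IsUltrametricDist.norm_sum_le_of_forall_le_of_nonneg hB fun α hα =>
      h 𝔞 (Finsupp.mem_support_iff.1 h𝔞) α (mem_T.1 hα)
  calc _ ≤ 1 * B := mul_le_mul h1 h2 (norm_nonneg _) zero_le_one
    _ = B := one_mul B

end

/-- `2m` is not a unit -/
theorem not_unit (K : Type) [Field K] [NumberField K] (m : ℕ) :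
    ¬ IsUnit (((2 * m : ℕ) : 𝓞 K)) := by
  intro h
  have h2 : IsUnit (2 : 𝓞 K) := by
    rw [Nat.cast_mul] at h
    exact isUnit_of_mul_isUnit_left h
  obtain ⟨β, hβ⟩ := h2.exists_right_inv
  have h3 : (β : K) = algebraMap ℚ K (1 / 2) := by
    have h4 := congrArg (algebraMap (𝓞 K) K) hβ
    rw [map_mul, map_one, map_ofNat] at h4
    rw [map_div₀, map_one, map_ofNat]
    field_simp
    linear_combination h4
  have h5 : IsIntegral ℤ (1 / 2 : ℚ) := by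
    rw [← isIntegral_algebraMap_iff (B := K) (algebraMap ℚ K).injective, ← h3]
    exact β.isIntegral_coe
  obtain ⟨n, hn⟩ := IsIntegrallyClosed.isIntegral_iff.1 h5
  have h6 : (n : ℚ) = 1 / 2 := hn
  have h7 : (2 * n : ℚ) = 1 := by rw [h6]; norm_num
  have h8 : 2 * n = 1 := by exact_mod_cast h7
  omega

/-- class representatives prime to `n` -/
theorem reps (hCLS : CLSStmt) (K : Type) [Field K] [NumberField K] (n : ℕ) (hn : n ≠ 0) :
    ∃ 𝔟 : ClassGroup (𝓞 K) → Ideal (𝓞 K), (∀ c, IsCoprime (𝔟 c) (Ideal.span {(n : 𝓞 K)})) ∧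
      (∀ c, 𝔟 c ≠ ⊥) ∧ ∀ 𝔞 : Ideal (𝓞 K), 𝔞 ≠ ⊥ → ∃ c₀, (𝔟 c₀ * 𝔞).IsPrincipal ∧
        ∀ c, (𝔟 c * 𝔞).IsPrincipal → c = c₀ := by
  have h1 : ∀ c : ClassGroup (𝓞 K), ∃ 𝔟 : Ideal (𝓞 K),
      IsCoprime 𝔟 (Ideal.span {(n : 𝓞 K)}) ∧ ∃ h : 𝔟 ∈ (Ideal (𝓞 K))⁰,
        ClassGroup.mk0 ⟨𝔟, h⟩ * c = 1 := by
    intro c
    obtain ⟨⟨𝔞, h𝔞⟩, rfl⟩ := ClassGroup.mk0_surjective c
    obtain ⟨𝔟, α, hα, hb, hab⟩ := hCLS K n hn 𝔞 (nonZeroDivisors.ne_zero h𝔞)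
    have hb0 : 𝔟 ≠ ⊥ := by
      rintro rfl
      rw [Ideal.bot_mul] at hab
      exact hα (Ideal.span_singleton_eq_bot.1 hab.symm)
    have hb1 : 𝔟 ∈ (Ideal (𝓞 K))⁰ := mem_nonZeroDivisors_of_ne_zero hb0
    refine ⟨𝔟, hb, hb1, ?_⟩
    rw [← map_mul]
    have h2 : ((⟨𝔟, hb1⟩ * ⟨𝔞, h𝔞⟩ : (Ideal (𝓞 K))⁰)) = ⟨𝔟 * 𝔞, mul_mem hb1 h𝔞⟩ := rfl
    rw [h2, ClassGroup.mk0_eq_one_iff, hab]
    exact ⟨⟨α, rfl⟩⟩
  choose 𝔟 hb1 hb2 hb3 using h1
  refine ⟨𝔟, hb1, fun c => nonZeroDivisors.ne_zero (hb2 c), fun 𝔞 h𝔞 => ?_⟩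
  have ha1 : 𝔞 ∈ (Ideal (𝓞 K))⁰ := mem_nonZeroDivisors_of_ne_zero h𝔞
  have key : ∀ c, (𝔟 c * 𝔞).IsPrincipal ↔ c = ClassGroup.mk0 ⟨𝔞, ha1⟩ := by
    intro c
    rw [← ClassGroup.mk0_eq_one_iff (mul_mem (hb2 c) ha1)]
    have h2 : (⟨𝔟 c * 𝔞, mul_mem (hb2 c) ha1⟩ : (Ideal (𝓞 K))⁰) = ⟨𝔟 c, hb2 c⟩ * ⟨𝔞, ha1⟩ := rfl
    rw [h2, map_mul]
    have h3 := hb3 c
    constructor
    · intro h4
      exact mul_left_cancel (h3.trans h4.symm)
    · intro h4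
      rw [← h4]
      exact h3
  exact ⟨ClassGroup.mk0 ⟨𝔞, ha1⟩, (key _).2 rfl, fun c hc => (key c).1 hc⟩

/-- the common level of finitely many conditions -/
theorem common {A ι : Type} [Finite ι] (G : ℕ → A → Prop) (hG : ∀ k k' P, k ≤ k' → G k' P → G k P)
    (Q : ι → A → Prop) (h : ∀ i, ∃ k, ∀ P, G k P → Q i P) : ∃ k, ∀ P, G k P → ∀ i, Q i P := by
  have := Fintype.ofFinite ι
  choose k hk using h
  refine ⟨Finset.univ.sup k, fun P hP i => hk i P (hG _ _ _ (Finset.le_sup (Finset.mem_univ i)) hP)⟩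

theorem CORE (hLIM : LIMStmt) (hCLS : CLSStmt) (hSUP : SUPStmt) : COREStmt := by
  intro K _ _ _ _ E _ _ _ _ ι m hm N _ hmN χ ψ hψ 𝓕 hApp hVan
  have hcomp : CompleteSpace E := FiniteDimensional.complete ℚ_[2] E
  have hm0 : 2 * m ≠ 0 := by
    obtain ⟨j, rfl⟩ := hm
    omega
  have hcz : CharZero E := charZero_of_injective_algebraMap (algebraMap ℚ_[2] E).injective
  -- the support is prime to `2m`
  have hsup : ∀ P 𝔞, (Lam K N χ P).coeff 𝔞 ≠ 0 →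
      IsCoprime 𝔞 (Ideal.span {((2 * m : ℕ) : 𝓞 K)}) := by
    intro P 𝔞 h
    have h1 := hSUP K N χ P 𝔞 h
    obtain ⟨j, hj⟩ := hmN
    have h2 : Ideal.span {((2 * N : ℕ) : 𝓞 K)} =
        Ideal.span {((2 * m : ℕ) : 𝓞 K)} * Ideal.span {((j : ℕ) : 𝓞 K)} := by
      rw [Ideal.span_singleton_mul_span_singleton, hj]
      push_cast
      rw [mul_assoc]
    rw [h2] at h1
    exact h1.of_mul_right_left
  have hne : ∀ 𝔞 : Ideal (𝓞 K), IsCoprime 𝔞 (Ideal.span {((2 * m : ℕ) : 𝓞 K)}) → 𝔞 ≠ ⊥ := by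
    rintro 𝔞 h rfl
    have h1 : IsCoprime (Ideal.span {(0 : 𝓞 K)}) (Ideal.span {((2 * m : ℕ) : 𝓞 K)}) := by
      rw [Ideal.span_singleton_zero]
      exact h
    rw [Ideal.isCoprime_span_singleton_iff, isCoprime_zero_left] at h1
    exact not_unit K m h1
  -- the homomorphism
  set L : FreeAlgebra ℤ (Gen N) →ₐ[ℤ] E :=
    (MonoidAlgebra.lift ℤ E (Ideal (𝓞 K)) ψ).comp (Lam K N χ) with hLdef
  have hL : ∀ P, L P = ∑ 𝔞 ∈ (Lam K N χ P).coeff.support, (Lam K N χ P).coeff 𝔞 • ψ 𝔞 := by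
    intro P
    rw [hLdef, AlgHom.comp_apply, MonoidAlgebra.lift_apply, Finsupp.sum]
  have hL1 : ∀ P, ‖L P‖ ≤ 1 := by
    intro P
    rw [hL]
    refine IsUltrametricDist.norm_sum_le_of_forall_le_of_nonneg zero_le_one fun 𝔞 h𝔞 => ?_
    rw [zsmul_eq_mul, norm_mul, hψ 𝔞 (hsup P 𝔞 (Finsupp.mem_support_iff.1 h𝔞)), mul_one]
    exact IsUltrametricDist.norm_intCast_le_one E _
  -- the class representatives
  obtain ⟨𝔟, hb1, hb2, hb3⟩ := reps hCLS K (2 * m) hm0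
  set w : ℕ := Nat.card (𝓞 K)ˣ with hw
  have hw0 : (w : E) ≠ 0 := by
    have := fin_units K
    have : w ≠ 0 := Nat.card_ne_zero.2 ⟨inferInstance, this⟩
    exact_mod_cast this
  have hid : ∀ P, (w : E) * L P =
      ∑ c, (ψ (𝔟 c))⁻¹ * pair (fun α => ψ (Ideal.span {α})) (𝔟 c) (Lam K N χ P) := by
    intro P
    simp only [pair_eq]
    rw [hL, Finset.mul_sum]
    simp only [Finset.mul_sum]
    rw [Finset.sum_comm]
    refine Finset.sum_congr rfl fun 𝔞 h𝔞 => ?_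
    have h1 := hsup P 𝔞 (Finsupp.mem_support_iff.1 h𝔞)
    have h2 := hne 𝔞 h1
    obtain ⟨c₀, hc1, hc2⟩ := hb3 𝔞 h2
    rw [Finset.sum_eq_single c₀]
    · obtain ⟨⟨α₀, hα₀⟩⟩ := hc1
      have hα₀' : 𝔟 c₀ * 𝔞 = Ideal.span {α₀} := hα₀
      have h3 : α₀ ≠ 0 := by
        rintro rfl
        rw [Ideal.span_singleton_zero] at hα₀'
        rcases Ideal.mul_eq_bot.1 hα₀' with h4 | h4
        · exact hb2 c₀ h4
        · exact h2 h4
      have h4 : ∑ α ∈ T (𝔟 c₀ * 𝔞), ψ (Ideal.span {α}) = w * (ψ (𝔟 c₀) * ψ 𝔞) := by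
        rw [Finset.sum_congr rfl (fun α hα => by rw [mem_T.1 hα]), Finset.sum_const, nsmul_eq_mul,
          map_mul]
        congr 2
        rw [hα₀', card_T h3]
      have h5 : ψ (𝔟 c₀) ≠ 0 := by
        intro h6
        have := hψ _ (hb1 c₀)
        rw [h6, norm_zero] at this
        exact zero_ne_one this
      rw [h4, zsmul_eq_mul, zsmul_eq_mul]
      field_simp
    · intro c _ hc
      rw [T_empty (fun h => hc (hc2 c h)), Finset.sum_empty, smul_zero, mul_zero]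
    · intro h
      exact absurd (Finset.mem_univ _) h
  -- smallness of one pairing
  have hsmall : ∀ 𝔟 : Ideal (𝓞 K), IsCoprime 𝔟 (Ideal.span {((2 * m : ℕ) : 𝓞 K)}) → 𝔟 ≠ ⊥ →
      ∀ ε : ℝ, 0 < ε → ∃ k : ℕ, ∀ P : FreeAlgebra ℤ (Gen N),
        (∀ i < k, FreeAlgebra.lift ℤ (fun s => gHk N s i) P = 0) →
          ‖pair (fun α => ψ (Ideal.span {α})) 𝔟 (Lam K N χ P)‖ ≤ ε := by
    intro 𝔟 hb hb0 ε hε
    obtain ⟨n, f, g, hf, happ⟩ := hApp ε hε
    have h1 : ∀ ij : (Σ i : Fin n, Fin ((g i).natDegree + 1)), ∃ k : ℕ,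
        ∀ P : FreeAlgebra ℤ (Gen N),
        (∀ i < k, FreeAlgebra.lift ℤ (fun s => gHk N s i) P = 0) →
          ‖(g ij.1).coeff ij.2 * ι (pair (fun α => (f ij.1 α : K) * (α : K) ^ (ij.2 : ℕ)) 𝔟
            (Lam K N χ P))‖ ≤ ε := by
      rintro ⟨i, j⟩
      have h2 : 0 < ‖(g i).coeff j‖ + 1 := by positivity
      obtain ⟨k, hk⟩ := hVan (f i) (hf i) j 𝔟 hb0 (ε / (‖(g i).coeff j‖ + 1)) (by positivity)
      refine ⟨k, fun P hP => ?_⟩
      have h3 := hk P hP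
      rw [norm_mul]
      calc _ ≤ (‖(g i).coeff j‖ + 1) * (ε / (‖(g i).coeff j‖ + 1)) :=
            mul_le_mul (by simp) h3.le (norm_nonneg _) h2.le
        _ = ε := by field_simp
    obtain ⟨k, hk⟩ := common (fun k P => ∀ i < k, FreeAlgebra.lift ℤ (fun s => gHk N s i) P = 0)
      (fun k k' P hkk h i hi => h i (hi.trans_le hkk)) _ h1
    refine ⟨k, fun P hP => ?_⟩
    have h2 := hk P hP
    have h4 : pair (fun α => ψ (Ideal.span {α})) 𝔟 (Lam K N χ P) =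
        pair (fun α => ψ (Ideal.span {α}) - ∑ i, (f i α : E) * (g i).eval (ι α)) 𝔟
          (Lam K N χ P) + pair (fun α : 𝓞 K => ∑ i, (f i α : E) * (g i).eval (ι α)) 𝔟
          (Lam K N χ P) := by
      rw [pair_sub, sub_add_cancel]
    have h5 : ‖pair (fun α => ψ (Ideal.span {α}) - ∑ i, (f i α : E) * (g i).eval (ι α)) 𝔟
        (Lam K N χ P)‖ ≤ ε := by
      refine pair_le _ _ _ hε.le fun 𝔞 h𝔞 α hα => (happ α ?_).le
      rw [← Ideal.isCoprime_span_singleton_iff, hα]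
      exact hb.mul_left (hsup P 𝔞 h𝔞)
    have h6 : pair (fun α : 𝓞 K => ∑ i, (f i α : E) * (g i).eval (ι α)) 𝔟 (Lam K N χ P) =
        ∑ i, ∑ j : Fin ((g i).natDegree + 1), (g i).coeff j *
          ι (pair (fun α => (f i α : K) * (α : K) ^ (j : ℕ)) 𝔟 (Lam K N χ P)) := by
      rw [pair_sum]
      refine Finset.sum_congr rfl fun i _ => ?_
      have h7 : (fun α : 𝓞 K => (f i α : E) * (g i).eval (ι α)) = fun α =>
          ∑ j : Fin ((g i).natDegree + 1), (g i).coeff j *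
            ι ((f i α : K) * (α : K) ^ (j : ℕ)) := by
        funext α
        rw [Polynomial.eval_eq_sum_range, Finset.sum_range, Finset.mul_sum]
        refine Finset.sum_congr rfl fun j _ => ?_
        rw [map_mul, map_pow, map_intCast]
        ring
      rw [h7, pair_sum]
      refine Finset.sum_congr rfl fun j _ => ?_
      rw [pair_mul]
      congr 1
      exact (pair_map ι.toAddMonoidHom _ 𝔟 _).symm
    have h8 : ‖pair (fun α : 𝓞 K => ∑ i, (f i α : E) * (g i).eval (ι α)) 𝔟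
        (Lam K N χ P)‖ ≤ ε := by
      rw [h6]
      refine IsUltrametricDist.norm_sum_le_of_forall_le_of_nonneg hε.le fun i _ => ?_
      refine IsUltrametricDist.norm_sum_le_of_forall_le_of_nonneg hε.le fun j _ => ?_
      exact h2 ⟨i, j⟩
    rw [h4]
    exact (IsUltrametricDist.norm_add_le_max _ _).trans (max_le h5 h8)
  -- smallness
  have hL2 : ∀ ε : ℝ, 0 < ε → ∃ k : ℕ, ∀ P : FreeAlgebra ℤ (Gen N),
      (∀ i < k, FreeAlgebra.lift ℤ (fun s => gHk N s i) P = 0) → ‖L P‖ < ε := by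
    intro ε hε
    have hwn : 0 < ‖(w : E)‖ := norm_pos_iff.2 hw0
    obtain ⟨k, hk⟩ := common (fun k P => ∀ i < k, FreeAlgebra.lift ℤ (fun s => gHk N s i) P = 0)
      (fun k k' P hkk h i hi => h i (hi.trans_le hkk)) _
      (fun c => hsmall (𝔟 c) (hb1 c) (hb2 c) (‖(w : E)‖ * ε / 2) (by positivity))
    refine ⟨k, fun P hP => ?_⟩
    have h1 : ‖(w : E) * L P‖ ≤ ‖(w : E)‖ * ε / 2 := by
      rw [hid]
      refine IsUltrametricDist.norm_sum_le_of_forall_le_of_nonneg (by positivity) fun c _ => ?_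
      rw [norm_mul, norm_inv, hψ _ (hb1 c), inv_one, one_mul]
      exact hk P hP c
    rw [norm_mul] at h1
    have h2 : ‖(w : E)‖ * ‖L P‖ < ‖(w : E)‖ * ε := by
      have : 0 < ‖(w : E)‖ * ε := by positivity
      linarith
    exact lt_of_mul_lt_mul_left h2 hwn.le
  obtain ⟨c, hc⟩ := hLIM (Gen N) (fun i => Module.End ℂ (MF N (i + 1))) (gHk N) E L hL1 hL2
  refine ⟨c, fun ℓ => ⟨?_, ?_⟩⟩
  · rw [hc, hLdef, AlgHom.comp_apply, Lam, FreeAlgebra.lift_ι_apply, Sum.elim_inl, frobSum]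
    have hfin : {𝔭 : Ideal (𝓞 K) | Ideal.absNorm 𝔭 = ℓ.1}.Finite :=
      Ideal.finite_setOfPred_absNorm_eq ℓ.1
    rw [finsum_mem_eq_finite_toFinset_sum _ hfin, finsum_mem_eq_finite_toFinset_sum _ hfin,
      map_sum]
    refine Finset.sum_congr rfl fun 𝔭 _ => ?_
    rw [MonoidAlgebra.lift_single, one_smul]
  · rw [hc, hLdef, AlgHom.comp_apply, Lam, FreeAlgebra.lift_ι_apply, Sum.elim_inr,
      MonoidAlgebra.lift_single, zsmul_eq_mul]

end Vale.Agent.P022.H545
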