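import Vale.Agent.P022.H545.Core

/-!
P022, the abstract form of [CORE]: any number field, any family of functions on ideals.
-/

open scoped ModularForm MatrixGroups Manifold NumberField nonZeroDivisors
open UpperHalfPlane Matrix CongruenceSubgroup

noncomputable section

namespace Vale.Agent.P022.H545

/-- `∑_𝔞 x(𝔞) G(𝔞)` -/
def ev {K : Type} [Field K] {M : Type} [AddCommGroup M] (G : Ideal (𝓞 K) → M)
    (x : MonoidAlgebra ℤ (Ideal (𝓞 K))) : M := x.coeff.sum fun 𝔞 n => n • G 𝔞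

section

variable {K : Type} [Field K]

theorem ev_eq {M : Type} [AddCommGroup M] (G : Ideal (𝓞 K) → M)
    (x : MonoidAlgebra ℤ (Ideal (𝓞 K))) :
    ev G x = ∑ 𝔞 ∈ x.coeff.support, x.coeff 𝔞 • G 𝔞 := rfl

theorem ev_sub {M : Type} [AddCommGroup M] (F G : Ideal (𝓞 K) → M)
    (x : MonoidAlgebra ℤ (Ideal (𝓞 K))) :
    ev (fun 𝔞 => F 𝔞 - G 𝔞) x = ev F x - ev G x := by
  simp only [ev_eq, smul_sub, Finset.sum_sub_distrib]

theorem ev_sum {M ι : Type} [AddCommGroup M] (s : Finset ι) (G : ι → Ideal (𝓞 K) → M)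
    (x : MonoidAlgebra ℤ (Ideal (𝓞 K))) :
    ev (fun 𝔞 => ∑ i ∈ s, G i 𝔞) x = ∑ i ∈ s, ev (G i) x := by
  simp only [ev_eq]
  rw [Finset.sum_comm]
  exact Finset.sum_congr rfl fun 𝔞 _ => Finset.smul_sum

theorem ev_mul {E : Type} [Field E] (c : E) (G : Ideal (𝓞 K) → E)
    (x : MonoidAlgebra ℤ (Ideal (𝓞 K))) :
    ev (fun 𝔞 => c * G 𝔞) x = c * ev G x := by
  simp only [ev_eq, Finset.mul_sum]
  refine Finset.sum_congr rfl fun 𝔞 _ => ?_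
  rw [zsmul_eq_mul, zsmul_eq_mul]
  ring

theorem ev_map {M M' : Type} [AddCommGroup M] [AddCommGroup M'] (φ : M →+ M')
    (G : Ideal (𝓞 K) → M) (x : MonoidAlgebra ℤ (Ideal (𝓞 K))) :
    φ (ev G x) = ev (fun 𝔞 => φ (G 𝔞)) x := by
  rw [ev_eq, ev_eq, map_sum]
  simp only [map_zsmul]

/-- ultrametric bound -/
theorem ev_le {E : Type} [NontriviallyNormedField E] [IsUltrametricDist E]
    (G : Ideal (𝓞 K) → E) (x : MonoidAlgebra ℤ (Ideal (𝓞 K))) {B : ℝ} (hB : 0 ≤ B)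
    (h : ∀ 𝔞, x.coeff 𝔞 ≠ 0 → ‖G 𝔞‖ ≤ B) : ‖ev G x‖ ≤ B := by
  rw [ev_eq]
  refine IsUltrametricDist.norm_sum_le_of_forall_le_of_nonneg hB fun 𝔞 h𝔞 => ?_
  rw [zsmul_eq_mul, norm_mul]
  have h1 : ‖((x.coeff 𝔞 : ℤ) : E)‖ ≤ 1 := IsUltrametricDist.norm_intCast_le_one E _
  calc _ ≤ 1 * B := mul_le_mul h1 (h 𝔞 (Finsupp.mem_support_iff.1 h𝔞)) (norm_nonneg _)
        zero_le_one
    _ = B := one_mul B

end

/-- the abstract form of [CORE]: `𝒢` is a set of functions on ideals which is small on the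
operators killing all small weights, and whose linear combinations approximate `ψ` uniformly on
ideals prime to `2m` -/
theorem core_abs (hLIM : LIMStmt) (hSUP : SUPStmt) (K : Type) [Field K] [NumberField K]
    (E : Type) [NontriviallyNormedField E] [NormedAlgebra ℚ_[2] E] [IsUltrametricDist E]
    [FiniteDimensional ℚ_[2] E] (m N : ℕ) [NeZero N] (hmN : m ∣ N) (χ : ℕ → ℤ)
    (ψ : Ideal (𝓞 K) →* E)
    (hψ : ∀ 𝔞 : Ideal (𝓞 K), IsCoprime 𝔞 (Ideal.span {((2 * m : ℕ) : 𝓞 K)}) → ‖ψ 𝔞‖ = 1)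
    (𝒢 : Set (Ideal (𝓞 K) → E))
    (hVan : ∀ G ∈ 𝒢, ∀ ε : ℝ, 0 < ε → ∃ k : ℕ, ∀ P : FreeAlgebra ℤ (Gen N),
      (∀ i < k, FreeAlgebra.lift ℤ (fun s => gHk N s i) P = 0) → ‖ev G (Lam K N χ P)‖ < ε)
    (hApp : ∀ ε : ℝ, 0 < ε → ∃ (n : ℕ) (G : Fin n → Ideal (𝓞 K) → E) (c : Fin n → E),
      (∀ i, G i ∈ 𝒢) ∧ ∀ 𝔞 : Ideal (𝓞 K), IsCoprime 𝔞 (Ideal.span {((2 * m : ℕ) : 𝓞 K)}) →
        ‖ψ 𝔞 - ∑ i, c i * G i 𝔞‖ < ε) :
    ∃ c : ContHom (gHk N) E, ∀ ℓ : PA N,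
      c.lam (gT2 (gHk N) (Sum.inl ℓ)) =
        (∑ᶠ 𝔭 ∈ {𝔭 : Ideal (𝓞 K) | Ideal.absNorm 𝔭 = ℓ.1}, ψ 𝔭) ∧
      c.lam (gT2 (gHk N) (Sum.inr ℓ)) = χ ℓ.1 * ψ (Ideal.span {(ℓ.1 : 𝓞 K)}) := by
  have hcomp : CompleteSpace E := FiniteDimensional.complete ℚ_[2] E
  have hsup : ∀ P 𝔞, (Lam K N χ P).coeff 𝔞 ≠ 0 →
      IsCoprime 𝔞 (Ideal.span {((2 * m : ℕ) : 𝓞 K)}) := by
    intro P 𝔞 h
    have h1 := hSUP K N χ P 𝔞 h
    obtain ⟨j, hj⟩ := hmN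
    have h2 : Ideal.span {((2 * N : ℕ) : 𝓞 K)} =
        Ideal.span {((2 * m : ℕ) : 𝓞 K)} * Ideal.span {((j : ℕ) : 𝓞 K)} := by
      rw [Ideal.span_singleton_mul_span_singleton, hj]
      push_cast
      rw [mul_assoc]
    rw [h2] at h1
    exact h1.of_mul_right_left
  set L : FreeAlgebra ℤ (Gen N) →ₐ[ℤ] E :=
    (MonoidAlgebra.lift ℤ E (Ideal (𝓞 K)) ψ).comp (Lam K N χ) with hLdef
  have hL : ∀ P, L P = ev (fun 𝔞 => ψ 𝔞) (Lam K N χ P) := by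
    intro P
    rw [hLdef, AlgHom.comp_apply, MonoidAlgebra.lift_apply, ev]
  have hL1 : ∀ P, ‖L P‖ ≤ 1 := by
    intro P
    rw [hL]
    exact ev_le _ _ zero_le_one fun 𝔞 h => (hψ 𝔞 (hsup P 𝔞 h)).le
  have hL2 : ∀ ε : ℝ, 0 < ε → ∃ k : ℕ, ∀ P : FreeAlgebra ℤ (Gen N),
      (∀ i < k, FreeAlgebra.lift ℤ (fun s => gHk N s i) P = 0) → ‖L P‖ < ε := by
    intro ε hε
    have hε2 : 0 < ε / 2 := by positivity
    obtain ⟨n, G, c, hG, happ⟩ := hApp (ε / 2) hε2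
    have h1 : ∀ i : Fin n, ∃ k : ℕ, ∀ P : FreeAlgebra ℤ (Gen N),
        (∀ i < k, FreeAlgebra.lift ℤ (fun s => gHk N s i) P = 0) →
          ‖c i * ev (G i) (Lam K N χ P)‖ ≤ ε / 2 := by
      intro i
      have h2 : 0 < ‖c i‖ + 1 := by positivity
      obtain ⟨k, hk⟩ := hVan (G i) (hG i) (ε / 2 / (‖c i‖ + 1)) (by positivity)
      refine ⟨k, fun P hP => ?_⟩
      rw [norm_mul]
      calc _ ≤ (‖c i‖ + 1) * (ε / 2 / (‖c i‖ + 1)) :=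
            mul_le_mul (by simp) (hk P hP).le (norm_nonneg _) h2.le
        _ = ε / 2 := by field_simp
    obtain ⟨k, hk⟩ := common (fun k P => ∀ i < k, FreeAlgebra.lift ℤ (fun s => gHk N s i) P = 0)
      (fun k k' P hkk h i hi => h i (hi.trans_le hkk)) _ h1
    refine ⟨k, fun P hP => ?_⟩
    have h2 := hk P hP
    have h3 : L P = ev (fun 𝔞 => ψ 𝔞 - ∑ i, c i * G i 𝔞) (Lam K N χ P) +
        ∑ i, c i * ev (G i) (Lam K N χ P) := by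
      have h4 : ev (fun 𝔞 => ∑ i, c i * G i 𝔞) (Lam K N χ P) =
          ∑ i, c i * ev (G i) (Lam K N χ P) := by
        rw [ev_sum]
        exact Finset.sum_congr rfl fun i _ => ev_mul _ _ _
      rw [hL, ev_sub, h4, sub_add_cancel]
    rw [h3]
    refine lt_of_le_of_lt ((IsUltrametricDist.norm_add_le_max _ _).trans (max_le ?_ ?_))
      (half_lt_self hε)
    · exact ev_le _ _ hε2.le fun 𝔞 h => (happ 𝔞 (hsup P 𝔞 h)).le
    · exact IsUltrametricDist.norm_sum_le_of_forall_le_of_nonneg hε2.le fun i _ => h2 i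
  obtain ⟨c, hc⟩ := hLIM (Gen N) (fun i => Module.End ℂ (MF N (i + 1))) (gHk N) E L hL1 hL2
  refine ⟨c, fun ℓ => ⟨?_, ?_⟩⟩
  · rw [hc, hLdef, AlgHom.comp_apply, Lam, FreeAlgebra.lift_ι_apply, Sum.elim_inl, frobSum]
    have hfin : {𝔭 : Ideal (𝓞 K) | Ideal.absNorm 𝔭 = ℓ.1}.Finite :=
      Ideal.finite_setOfPred_absNorm_eq ℓ.1
    rw [finsum_mem_eq_finite_toFinset_sum _ hfin, finsum_mem_eq_finite_toFinset_sum _ hfin,
      map_sum]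
    refine Finset.sum_congr rfl fun 𝔭 _ => ?_
    rw [MonoidAlgebra.lift_single, one_smul]
  · rw [hc, hLdef, AlgHom.comp_apply, Lam, FreeAlgebra.lift_ι_apply, Sum.elim_inr,
      MonoidAlgebra.lift_single, zsmul_eq_mul]

end Vale.Agent.P022.H545
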